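import Vale.Agent.Lib.P013.Peel

namespace Vale.Agent.Results.P013.PeelBound

/-- For coprime positive integers `a`, `b` such that the reciprocals of the prime factors of `b`
sum to `s < 1`, every `a * (⌊ω(b) / (1 - s)⌋ + 1)` consecutive integers contain an integer
coprime to `a * b`. -/
theorem result :
    ∀ a b : ℕ, 0 < a → 0 < b → Nat.Coprime a b →
      (∑ p ∈ b.primeFactors, (1 : ℝ) / p) < 1 →
      ∀ x : ℤ, ∃ i : ℕ,
        i < a * (⌊(b.primeFactors.card : ℝ) / (1 - ∑ p ∈ b.primeFactors, (1 : ℝ) / p)⌋₊ + 1) ∧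
        IsCoprime (x + (i : ℤ)) ((a * b : ℕ) : ℤ) :=
  fun a b ha hb hab hs x => Vale.Agent.Lib.P013.peel_bound a b ha hb hab hs x

end Vale.Agent.Results.P013.PeelBound
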